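import Mathlib
import Vale.Agent.Lib.P162.Defs
import Vale.Agent.Lib.P162.RDefs
import Vale.Agent.Lib.P162.CVDefs
import Vale.Agent.Lib.P162.helper93.Gap
import Vale.Agent.Lib.P162.helper36.MoveInj

/-!
# P162 pool piece CV3 (backup copy, helper56): support and walker symmetry of the powers of the
two-walker kernel
-/

namespace Vale.Agent.Lib.P162.H56CV

open Finset BigOperators

/-- Exchange of the two walkers. -/
def swapTwo {α : Type*} {j : ℕ} (u : Fin (j + 2) → α) : Fin (j + 2) → α :=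
  Fin.cons (u 1) (Fin.cons (u 0) (Fin.tail (Fin.tail u)))

theorem swapTwo_apply {α : Type*} {j : ℕ} (u : Fin (j + 2) → α) :
    swapTwo u = Fin.cons (u 1) (Fin.cons (u 0) (Fin.tail (Fin.tail u))) := rfl

theorem cons_one_tail {α : Type*} {j : ℕ} (u : Fin (j + 2) → α) :
    (Fin.cons (u 1) (Fin.tail (Fin.tail u)) : Fin (j + 1) → α) = Fin.tail u := by
  have h1 : Fin.tail u 0 = u 1 := by
    show u (Fin.succ 0) = u 1
    rw [Fin.succ_zero_eq_one]
  rw [← h1]
  exact Fin.cons_self_tail (Fin.tail u)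

theorem swapTwo_cons {α : Type*} {j : ℕ} (q q' : α) (v : Fin j → α) :
    swapTwo (Fin.cons q (Fin.cons q' v) : Fin (j + 2) → α) = Fin.cons q' (Fin.cons q v) := by
  rw [swapTwo_apply, tail_tail_cons_cons, Fin.cons_one, Fin.cons_zero, Fin.cons_zero]

theorem dropTwo_swapTwo {α : Type*} {j : ℕ} (u : Fin (j + 2) → α) :
    dropTwo (swapTwo u) = Fin.tail u := by
  rw [swapTwo_apply, dropTwo_cons]
  exact cons_one_tail u

theorem tail_swapTwo {α : Type*} {j : ℕ} (u : Fin (j + 2) → α) :
    Fin.tail (swapTwo u) = dropTwo u := by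
  rw [swapTwo_apply, tail_cons_cons, dropTwo_apply]

theorem tail_tail_swapTwo {α : Type*} {j : ℕ} (u : Fin (j + 2) → α) :
    Fin.tail (Fin.tail (swapTwo u)) = Fin.tail (Fin.tail u) := by
  rw [swapTwo_apply, tail_tail_cons_cons]

theorem swapTwo_swapTwo {α : Type*} {j : ℕ} (u : Fin (j + 2) → α) :
    swapTwo (swapTwo u) = u := by
  have h0 : swapTwo u 0 = u 1 := by rw [swapTwo_apply, Fin.cons_zero]
  have h1 : swapTwo u 1 = u 0 := by rw [swapTwo_apply, Fin.cons_one, Fin.cons_zero]
  rw [swapTwo_apply (swapTwo u), h0, h1, tail_tail_swapTwo, cons_one_tail]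
  exact Fin.cons_self_tail u

theorem Qmat_swapTwo (h j : ℕ) [NeZero h] (u y : Fin (j + 2) → ZMod (2 * h)) :
    Qmat h j (swapTwo u) (swapTwo y) = Qmat h j u y := by
  rw [Qmat_apply, Qmat_apply, tail_tail_swapTwo, tail_tail_swapTwo, dropTwo_swapTwo,
    dropTwo_swapTwo, tail_swapTwo, tail_swapTwo,
    mul_comm (Kmat h (j + 1) (Fin.tail u) (Fin.tail y))]

theorem Qpow_swapTwo (h j : ℕ) [NeZero h] (t : ℕ) :
    ∀ u y : Fin (j + 2) → ZMod (2 * h),
      (Qmat h j ^ t) (swapTwo u) (swapTwo y) = (Qmat h j ^ t) u y := by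
  induction t with
  | zero =>
    intro u y
    rw [pow_zero, Matrix.one_apply, Matrix.one_apply]
    by_cases huy : u = y
    · rw [if_pos huy, if_pos (by rw [huy])]
    · rw [if_neg huy, if_neg]
      intro hs
      apply huy
      have h2 := congrArg swapTwo hs
      rwa [swapTwo_swapTwo, swapTwo_swapTwo] at h2
  | succ t ih =>
    intro u y
    rw [pow_succ, Matrix.mul_apply, Matrix.mul_apply]
    rw [← Equiv.sum_comp (Function.Involutive.toPerm swapTwo swapTwo_swapTwo)
      (fun x => (Qmat h j ^ t) (swapTwo u) x * Qmat h j x (swapTwo y))]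
    refine Finset.sum_congr rfl fun x _ => ?_
    show (Qmat h j ^ t) (swapTwo u) (swapTwo x) * Qmat h j (swapTwo x) (swapTwo y) = _
    rw [ih, Qmat_swapTwo]

/-- Pool piece CV3, second statement: exchanging the two walkers. -/
theorem Qpow_swap (h j : ℕ) [NeZero h] (t : ℕ) (p p' q q' : ZMod (2 * h))
    (w v : Fin j → ZMod (2 * h)) :
    (Qmat h j ^ t) (Fin.cons p (Fin.cons p' w)) (Fin.cons q (Fin.cons q' v))
      = (Qmat h j ^ t) (Fin.cons p' (Fin.cons p w)) (Fin.cons q' (Fin.cons q v)) := by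
  have h2 := Qpow_swapTwo h j t (Fin.cons p (Fin.cons p' w)) (Fin.cons q (Fin.cons q' v))
  rw [swapTwo_cons, swapTwo_cons] at h2
  exact h2.symm

theorem Qmat_support (h j : ℕ) [NeZero h] (u y : Fin (j + 2) → ZMod (2 * h))
    (hu1 : Function.Injective (dropTwo u)) (hu2 : Function.Injective (Fin.tail u))
    (hne : Qmat h j u y ≠ 0) :
    Function.Injective (dropTwo y) ∧ Function.Injective (Fin.tail y) := by
  rw [Qmat_apply] at hne
  have hA : Kmat h (j + 1) (dropTwo u) (dropTwo y) ≠ 0 := fun h0 =>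
    hne (by rw [h0, zero_mul, zero_div])
  have hB : Kmat h (j + 1) (Fin.tail u) (Fin.tail y) ≠ 0 := fun h0 =>
    hne (by rw [h0, mul_zero, zero_div])
  rw [defs_aux_Kmat] at hA hB
  obtain ⟨c, hc⟩ := H93.H93_step_witness h (j + 1) _ _ hA
  obtain ⟨c', hc'⟩ := H93.H93_step_witness h (j + 1) _ _ hB
  constructor
  · have h1 : dropTwo y = move h c ∘ dropTwo u := funext fun i => (hc i).symm
    rw [h1]
    exact (H36.move_injective h c).comp hu1
  · have h1 : Fin.tail y = move h c' ∘ Fin.tail u := funext fun i => (hc' i).symm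
    rw [h1]
    exact (H36.move_injective h c').comp hu2

theorem Qpow_support_aux (h j : ℕ) [NeZero h] (t : ℕ) (u : Fin (j + 2) → ZMod (2 * h))
    (hu1 : Function.Injective (dropTwo u)) (hu2 : Function.Injective (Fin.tail u)) :
    ∀ y, (Qmat h j ^ t) u y ≠ 0 →
      Function.Injective (dropTwo y) ∧ Function.Injective (Fin.tail y) := by
  induction t with
  | zero =>
    intro y hne
    rw [pow_zero, Matrix.one_apply] at hne
    by_cases huy : u = y
    · rw [← huy]
      exact ⟨hu1, hu2⟩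
    · rw [if_neg huy] at hne
      exact absurd rfl hne
  | succ t ih =>
    intro y hne
    rw [pow_succ, Matrix.mul_apply] at hne
    obtain ⟨x, _, hx⟩ := Finset.exists_ne_zero_of_sum_ne_zero hne
    have hx1 : (Qmat h j ^ t) u x ≠ 0 := left_ne_zero_of_mul hx
    have hx2 : Qmat h j x y ≠ 0 := right_ne_zero_of_mul hx
    obtain ⟨g1, g2⟩ := ih x hx1
    exact Qmat_support h j x y g1 g2 hx2

/-- Pool piece CV3, first statement: the powers of the two-walker kernel keep each walker off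
the old cards and the old cards distinct. -/
theorem Qpow_support (h j : ℕ) [NeZero h] (t : ℕ) (p p' : ZMod (2 * h)) (w : Fin j → ZMod (2 * h))
    (hz : Function.Injective (Fin.cons p w : Fin (j + 1) → ZMod (2 * h)))
    (hz' : Function.Injective (Fin.cons p' w : Fin (j + 1) → ZMod (2 * h)))
    (q q' : ZMod (2 * h)) (v : Fin j → ZMod (2 * h))
    (hne : (Qmat h j ^ t) (Fin.cons p (Fin.cons p' w)) (Fin.cons q (Fin.cons q' v)) ≠ 0) :
    Function.Injective v ∧ (∀ i, q ≠ v i) ∧ (∀ i, q' ≠ v i) := by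
  have hu1 : Function.Injective
      (dropTwo (Fin.cons p (Fin.cons p' w) : Fin (j + 2) → ZMod (2 * h))) := by
    rw [dropTwo_cons]
    exact hz
  have hu2 : Function.Injective
      (Fin.tail (Fin.cons p (Fin.cons p' w) : Fin (j + 2) → ZMod (2 * h))) := by
    rw [tail_cons_cons]
    exact hz'
  obtain ⟨g1, g2⟩ := Qpow_support_aux h j t _ hu1 hu2 _ hne
  rw [dropTwo_cons] at g1
  rw [tail_cons_cons] at g2
  rw [Fin.cons_injective_iff] at g1 g2
  exact ⟨g1.2, fun i hq => g1.1 ⟨i, hq.symm⟩, fun i hq => g2.1 ⟨i, hq.symm⟩⟩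

end Vale.Agent.Lib.P162.H56CV
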